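import Mathlib

/-!
Pointwise linear algebra for almost complex structures on a four dimensional real vector
space: extension of an alternating form given on a real hyperplane to an invariant taming form.
-/

namespace Vale.Agent.Lib.P204

open Module

/-- The model space. -/
abbrev E4 : Type := Fin 4 → ℝ

/-- The alternating form in the last three coordinates with kernel direction `w`. -/
def cform (w u v : E4) : ℝ :=
  w 1 * (u 2 * v 3 - u 3 * v 2) + w 2 * (u 3 * v 1 - u 1 * v 3) + w 3 * (u 1 * v 2 - u 2 * v 1)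

theorem cform_self_left (w v : E4) : cform w w v = 0 := by
  unfold cform; ring

theorem cform_self_right (w u : E4) : cform w u w = 0 := by
  unfold cform; ring

theorem cform_self (w u : E4) : cform w u u = 0 := by
  unfold cform; ring

theorem cform_swap (w u v : E4) : cform w u v = - cform w v u := by
  unfold cform; ring

theorem cform_zero_left (w v : E4) : cform w 0 v = 0 := by
  simp [cform]

/-- The linear map `v ↦ (v 0, (J v) 0)` whose kernel is the complex line inside the hyperplane. -/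
def fL (J : E4 →ₗ[ℝ] E4) : E4 →ₗ[ℝ] (ℝ × ℝ) :=
  (LinearMap.proj 0).prod ((LinearMap.proj 0).comp J)

theorem fL_apply (J : E4 →ₗ[ℝ] E4) (v : E4) : fL J v = (v 0, J v 0) := rfl

theorem fL_surjective (J : E4 →ₗ[ℝ] E4) (hJ : ∀ v, J (J v) = -v) :
    Function.Surjective (fL J) := by
  rintro ⟨p, q⟩
  set e0 : E4 := Pi.single 0 1 with he0
  set s : ℝ := J e0 0 with hs
  have hs' : 1 + s ^ 2 ≠ 0 := by positivity
  refine ⟨((p + s * q) / (1 + s ^ 2)) • e0 + ((s * p - q) / (1 + s ^ 2)) • J e0, ?_⟩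
  rw [fL_apply]
  have h1 : (J (J e0)) 0 = -1 := by rw [hJ]; simp [he0]
  have h2 : e0 0 = 1 := by simp [he0]
  ext
  · simp only [Pi.add_apply, Pi.smul_apply, smul_eq_mul, h2, ← hs]
    field_simp
    ring
  · simp only [map_add, map_smul, Pi.add_apply, Pi.smul_apply, smul_eq_mul, h1, ← hs]
    field_simp
    ring

theorem finrank_ker_fL (J : E4 →ₗ[ℝ] E4) (hJ : ∀ v, J (J v) = -v) :
    finrank ℝ (LinearMap.ker (fL J)) = 2 := by
  have h1 := (fL J).finrank_range_add_finrank_ker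
  rw [LinearMap.range_eq_top.2 (fL_surjective J hJ)] at h1
  simp at h1
  omega

theorem mem_ker_fL (J : E4 →ₗ[ℝ] E4) (v : E4) :
    v ∈ LinearMap.ker (fL J) ↔ v 0 = 0 ∧ J v 0 = 0 := by
  rw [LinearMap.mem_ker, fL_apply, Prod.mk_eq_zero]

theorem exists_L_ne_zero (J : E4 →ₗ[ℝ] E4) (hJ : ∀ v, J (J v) = -v) :
    ∃ v : E4, v ≠ 0 ∧ v 0 = 0 ∧ J v 0 = 0 := by
  have h : 0 < finrank ℝ (LinearMap.ker (fL J)) := by rw [finrank_ker_fL J hJ]; norm_num
  obtain ⟨⟨v, hv⟩, hne⟩ := Module.finrank_pos_iff_exists_ne_zero.1 h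
  refine ⟨v, fun h0 => hne (Subtype.ext h0), (mem_ker_fL J v).1 hv⟩

theorem smul_add_smul_J_eq_zero (J : E4 →ₗ[ℝ] E4) (hJ : ∀ v, J (J v) = -v) {l : E4} (hl : l ≠ 0)
    {a b : ℝ} (h : a • l + b • J l = 0) : a = 0 ∧ b = 0 := by
  have h2 : J (a • l + b • J l) = 0 := by rw [h]; simp
  rw [map_add, map_smul, map_smul, hJ] at h2
  have h3 : (a ^ 2 + b ^ 2) • l = 0 := by
    have : (a ^ 2 + b ^ 2) • l = a • (a • l + b • J l) - b • (a • J l + b • -l) := by
      simp only [smul_add, smul_neg, smul_smul, add_smul]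
      rw [mul_comm b a]
      ring_nf
    rw [this, h, h2]; simp
  rcases smul_eq_zero.1 h3 with h4 | h4
  · constructor <;> nlinarith [sq_nonneg a, sq_nonneg b]
  · exact absurd h4 hl

theorem exists_span (J : E4 →ₗ[ℝ] E4) (hJ : ∀ v, J (J v) = -v) {l l' : E4}
    (hl0 : l 0 = 0) (hl1 : J l 0 = 0) (hl'0 : l' 0 = 0) (hl'1 : J l' 0 = 0) (hl : l ≠ 0) :
    ∃ α β : ℝ, l' = α • l + β • J l := by
  have hJl : J l ∈ LinearMap.ker (fL J) := by
    rw [mem_ker_fL, hJ]; exact ⟨hl1, by simp [hl0]⟩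
  have hlm : l ∈ LinearMap.ker (fL J) := (mem_ker_fL J l).2 ⟨hl0, hl1⟩
  have hl'm : l' ∈ LinearMap.ker (fL J) := (mem_ker_fL J l').2 ⟨hl'0, hl'1⟩
  let b : Fin 3 → LinearMap.ker (fL J) := ![⟨l, hlm⟩, ⟨J l, hJl⟩, ⟨l', hl'm⟩]
  have hnot : ¬ LinearIndependent ℝ b := fun h => by
    have h3 := h.fintype_card_le_finrank
    rw [finrank_ker_fL J hJ] at h3
    simp at h3
  obtain ⟨g, hg, i, hi⟩ := Fintype.not_linearIndependent_iff.1 hnot
  have hg' : g 0 • l + g 1 • J l + g 2 • l' = 0 := by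
    have h4 := congrArg Subtype.val hg
    simpa [Fin.sum_univ_three, b] using h4
  by_cases h2 : g 2 = 0
  · exfalso
    rw [h2, zero_smul, add_zero] at hg'
    obtain ⟨h0, h1⟩ := smul_add_smul_J_eq_zero J hJ hl hg'
    fin_cases i
    · exact hi h0
    · exact hi h1
    · exact hi h2
  · refine ⟨-(g 0 / g 2), -(g 1 / g 2), ?_⟩
    have h5 : g 2 • l' = -(g 0 • l + g 1 • J l) := by
      rw [eq_neg_iff_add_eq_zero, add_comm]; exact hg'
    have h6 : l' = (g 2)⁻¹ • (g 2 • l') := by rw [smul_smul, inv_mul_cancel₀ h2, one_smul]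
    rw [h6, h5]
    simp only [smul_neg, smul_add, smul_smul, neg_smul]
    rw [neg_add]
    congr 2 <;> field_simp

theorem cform_J_J (J : E4 →ₗ[ℝ] E4) (hJ : ∀ v, J (J v) = -v) (w : E4) {l l' : E4}
    (hl0 : l 0 = 0) (hl1 : J l 0 = 0) (hl'0 : l' 0 = 0) (hl'1 : J l' 0 = 0) :
    cform w (J l) (J l') = cform w l l' := by
  by_cases hl : l = 0
  · subst hl; simp [cform]
  · obtain ⟨α, β, rfl⟩ := exists_span J hJ hl0 hl1 hl'0 hl'1 hl
    simp only [map_add, map_smul, hJ]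
    simp only [cform, Pi.add_apply, Pi.smul_apply, Pi.neg_apply, smul_eq_mul]
    ring

/-- The one-form `β` of the construction. -/
noncomputable def beta (J : E4 →ₗ[ℝ] E4) (w v : E4) : ℝ :=
  cform w v (J w) / (J w 0) - (J v 0) / (J w 0) ^ 2

/-- The extended form `c + dt ∧ β`. -/
noncomputable def Om (J : E4 →ₗ[ℝ] E4) (w u v : E4) : ℝ :=
  cform w u v + (u 0 * beta J w v - v 0 * beta J w u)

/-- Projection onto the complex line in the hyperplane along the complex line of `w`. -/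
noncomputable def Pm (J : E4 →ₗ[ℝ] E4) (w u : E4) : E4 :=
  u - (J u 0 / J w 0) • w - (u 0 / J w 0) • J w

theorem kappa_ne (J : E4 →ₗ[ℝ] E4) (hJ : ∀ v, J (J v) = -v) {w : E4} (hw0 : w 0 = 0)
    (hpos : ∀ v : E4, v 0 = 0 → J v 0 = 0 → v ≠ 0 → 0 < cform w v (J v)) : J w 0 ≠ 0 := by
  intro hk
  by_cases hw : w = 0
  · obtain ⟨v, hv, hv0, hv1⟩ := exists_L_ne_zero J hJ
    have := hpos v hv0 hv1 hv
    rw [hw] at this
    simp [cform] at this
  · have := hpos w hw0 hk hw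
    rw [cform_self_left] at this
    exact lt_irrefl _ this

theorem Pm_zero (J : E4 →ₗ[ℝ] E4) {w : E4} (hw0 : w 0 = 0) (hk : J w 0 ≠ 0) (u : E4) :
    Pm J w u 0 = 0 := by
  simp only [Pm, Pi.sub_apply, Pi.smul_apply, smul_eq_mul, hw0]
  field_simp
  ring

theorem J_Pm (J : E4 →ₗ[ℝ] E4) (hJ : ∀ v, J (J v) = -v) (w u : E4) :
    J (Pm J w u) = J u - (J u 0 / J w 0) • J w + (u 0 / J w 0) • w := by
  simp only [Pm, map_sub, map_smul, hJ, smul_neg, sub_neg_eq_add]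

theorem J_Pm_zero (J : E4 →ₗ[ℝ] E4) (hJ : ∀ v, J (J v) = -v) {w : E4} (hw0 : w 0 = 0)
    (hk : J w 0 ≠ 0) (u : E4) : J (Pm J w u) 0 = 0 := by
  rw [J_Pm J hJ]
  simp only [Pi.sub_apply, Pi.add_apply, Pi.smul_apply, smul_eq_mul, hw0]
  field_simp
  ring

theorem Pm_J (J : E4 →ₗ[ℝ] E4) (hJ : ∀ v, J (J v) = -v) (w u : E4) :
    Pm J w (J u) = J (Pm J w u) := by
  rw [J_Pm J hJ]
  simp only [Pm, hJ, Pi.neg_apply, neg_div, neg_smul, sub_neg_eq_add]
  abel

theorem Om_eq (J : E4 →ₗ[ℝ] E4) {w : E4} (hk : J w 0 ≠ 0) (u v : E4) :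
    Om J w u v = cform w (Pm J w u) (Pm J w v)
      + ((J u 0 / J w 0) * (v 0 / J w 0) - (J v 0 / J w 0) * (u 0 / J w 0)) := by
  simp only [Om, beta, cform, Pm, Pi.sub_apply, Pi.smul_apply, smul_eq_mul]
  field_simp
  ring

theorem Om_J_J (J : E4 →ₗ[ℝ] E4) (hJ : ∀ v, J (J v) = -v) {w : E4} (hw0 : w 0 = 0)
    (hpos : ∀ v : E4, v 0 = 0 → J v 0 = 0 → v ≠ 0 → 0 < cform w v (J v)) (u v : E4) :
    Om J w (J u) (J v) = Om J w u v := by
  have hk := kappa_ne J hJ hw0 hpos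
  rw [Om_eq J hk, Om_eq J hk, Pm_J J hJ, Pm_J J hJ,
    cform_J_J J hJ w (Pm_zero J hw0 hk u) (J_Pm_zero J hJ hw0 hk u) (Pm_zero J hw0 hk v)
      (J_Pm_zero J hJ hw0 hk v)]
  simp only [hJ, Pi.neg_apply]
  ring

theorem Om_pos (J : E4 →ₗ[ℝ] E4) (hJ : ∀ v, J (J v) = -v) {w : E4} (hw0 : w 0 = 0)
    (hpos : ∀ v : E4, v 0 = 0 → J v 0 = 0 → v ≠ 0 → 0 < cform w v (J v)) (v : E4) (hv : v ≠ 0) :
    0 < Om J w v (J v) := by
  have hk := kappa_ne J hJ hw0 hpos
  rw [Om_eq J hk, Pm_J J hJ]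
  simp only [hJ, Pi.neg_apply]
  have hsq : (J v 0 / J w 0) * (J v 0 / J w 0) - (-v 0 / J w 0) * (v 0 / J w 0)
      = (J v 0 / J w 0) ^ 2 + (v 0 / J w 0) ^ 2 := by ring
  rw [hsq]
  by_cases hp : Pm J w v = 0
  · rw [hp]
    simp only [map_zero, cform_zero_left, zero_add]
    by_contra hneg
    have h0 : (J v 0 / J w 0) ^ 2 + (v 0 / J w 0) ^ 2 = 0 :=
      le_antisymm (not_lt.1 hneg) (by positivity)
    have ha : J v 0 / J w 0 = 0 := by nlinarith [sq_nonneg (J v 0 / J w 0), sq_nonneg (v 0 / J w 0)]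
    have hb : v 0 / J w 0 = 0 := by nlinarith [sq_nonneg (J v 0 / J w 0), sq_nonneg (v 0 / J w 0)]
    apply hv
    have : Pm J w v = v := by
      simp only [Pm, ha, hb, zero_smul, sub_zero]
    rw [← this, hp]
  · have := hpos (Pm J w v) (Pm_zero J hw0 hk v) (J_Pm_zero J hJ hw0 hk v) hp
    positivity

theorem Om_hyperplane (J : E4 →ₗ[ℝ] E4) (w : E4) {u v : E4} (hu : u 0 = 0) (hv : v 0 = 0) :
    Om J w u v = cform w u v := by
  simp [Om, hu, hv]

end Vale.Agent.Lib.P204
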