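import Mathlib
import Vale.Agent.Lib.P204.Alg

namespace Vale.Agent.Lib.P204

open MeasureTheory Set

/-- the standard basis vector -/
abbrev e4 (i : Fin 4) : E4 := Pi.single i 1

variable {om : E4 → E4 [⋀^Fin 2]→L[ℝ] ℝ}

theorem contDiff_eval (hom : ContDiff ℝ 1 om) (u v : E4) : ContDiff ℝ 1 (fun x => om x ![u, v]) :=
  (ContinuousAlternatingMap.apply ℝ E4 ℝ ![u, v]).contDiff.comp hom

theorem extDeriv_apply3 {x : E4} (hom : DifferentiableAt ℝ om x) (a b c : E4) :
    extDeriv om x ![a, b, c] = fderiv ℝ (fun y => om y ![b, c]) x a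
      - fderiv ℝ (fun y => om y ![a, c]) x b + fderiv ℝ (fun y => om y ![a, b]) x c := by
  rw [extDeriv_apply hom]
  have h0 : Fin.removeNth (0 : Fin 3) ![a, b, c] = ![b, c] := by
    ext i; fin_cases i <;> rfl
  have h1 : Fin.removeNth (1 : Fin 3) ![a, b, c] = ![a, c] := by
    ext i; fin_cases i <;> rfl
  have h2 : Fin.removeNth (2 : Fin 3) ![a, b, c] = ![a, b] := by
    ext i; fin_cases i <;> rfl
  simp [Fin.sum_univ_three, h0, h1, h2]
  ring

/-- Average of a coefficient of the form over the three-torus at height `t`. -/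
noncomputable def avg (om : E4 → E4 [⋀^Fin 2]→L[ℝ] ℝ) (u v : E4) (t : ℝ) : ℝ :=
  ∫ y in Icc (0 : Fin 3 → ℝ) 1, om ((0 : Fin 4).insertNth t y) ![u, v]

theorem insertNth_one_eq (k : Fin 4) (y : Fin 3 → ℝ) :
    (k.insertNth (1 : ℝ) y : E4) = k.insertNth (0 : ℝ) y + Pi.single k 1 := by
  ext l
  rcases Fin.eq_self_or_eq_succAbove k l with h | ⟨j, h⟩
  · subst h; simp
  · subst h; simp [Fin.succAbove_ne]

theorem avg_const_le (hom : ContDiff ℝ 1 om) (hper : ∀ x (i : Fin 4), om (x + Pi.single i 1) = om x)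
    (hcl : ∀ x, extDeriv om x = 0) {i j : Fin 4} (hi : i ≠ 0) (hj : j ≠ 0) {t0 t1 : ℝ}
    (h01 : t0 ≤ t1) : avg om (e4 i) (e4 j) t1 = avg om (e4 i) (e4 j) t0 := by
  set a : Fin 4 → ℝ := (0 : Fin 4).insertNth t0 (0 : Fin 3 → ℝ) with ha
  set b : Fin 4 → ℝ := (0 : Fin 4).insertNth t1 (1 : Fin 3 → ℝ) with hb
  have hab : a ≤ b := by
    intro l
    rcases Fin.eq_self_or_eq_succAbove 0 l with h | ⟨j, h⟩
    · subst h; simp [ha, hb, h01]
    · subst h; simp [ha, hb]
  have hd : ∀ u v : E4, Differentiable ℝ (fun x => om x ![u, v]) := fun u v =>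
    (contDiff_eval hom u v).differentiable one_ne_zero
  set f : E4 → Fin 4 → ℝ := fun x => om x ![e4 i, e4 j] • e4 0 - om x ![e4 0, e4 j] • e4 i
    + om x ![e4 0, e4 i] • e4 j with hf
  set f' : E4 → E4 →L[ℝ] Fin 4 → ℝ := fun x =>
    (fderiv ℝ (fun x => om x ![e4 i, e4 j]) x).smulRight (e4 0)
    - (fderiv ℝ (fun x => om x ![e4 0, e4 j]) x).smulRight (e4 i)
    + (fderiv ℝ (fun x => om x ![e4 0, e4 i]) x).smulRight (e4 j) with hf'
  have hfd : ∀ x, HasFDerivAt f (f' x) x := fun x =>
    (((hd _ _ x).hasFDerivAt.smul_const _).sub ((hd _ _ x).hasFDerivAt.smul_const _)).add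
      ((hd _ _ x).hasFDerivAt.smul_const _)
  have hdiv : ∀ x, ∑ k, f' x (Pi.single k 1) k = 0 := by
    intro x
    have h3 := extDeriv_apply3 ((hom.differentiable one_ne_zero) x) (e4 0) (e4 i) (e4 j)
    rw [hcl x] at h3
    simp only [hf', add_apply, sub_apply,
      ContinuousLinearMap.smulRight_apply, Pi.add_apply, Pi.sub_apply, Pi.smul_apply, smul_eq_mul,
      Pi.single_apply, mul_ite, mul_one, mul_zero, Finset.sum_add_distrib, Finset.sum_sub_distrib,
      Finset.sum_ite_eq', Finset.mem_univ, if_true]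
    simpa using h3.symm
  have hfc : Continuous f := continuous_iff_continuousAt.2 fun x => (hfd x).continuousAt
  have key := integral_divergence_of_hasFDerivAt_off_countable a b hab f f' ∅ countable_empty
    hfc.continuousOn (fun x _ => hfd x) (by simp only [hdiv]; exact integrableOn_zero)
  simp only [hdiv, integral_zero] at key
  rw [Fin.sum_univ_succ] at key
  have hrest : ∀ k : Fin 3, (∫ y in Icc (a ∘ k.succ.succAbove) (b ∘ k.succ.succAbove),
      f (k.succ.insertNth (b k.succ) y) k.succ) - ∫ y in Icc (a ∘ k.succ.succAbove)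
      (b ∘ k.succ.succAbove), f (k.succ.insertNth (a k.succ) y) k.succ = 0 := by
    intro k
    have hbk : b k.succ = 1 := by
      rw [hb, ← Fin.succAbove_zero, Fin.insertNth_apply_succAbove]; rfl
    have hak : a k.succ = 0 := by
      rw [ha, ← Fin.succAbove_zero, Fin.insertNth_apply_succAbove]; rfl
    rw [hbk, hak, sub_eq_zero]
    congr 1
    funext y
    have : om (k.succ.insertNth (1 : ℝ) y) = om (k.succ.insertNth (0 : ℝ) y) := by
      rw [insertNth_one_eq, hper]
    simp only [hf, this]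
  rw [Finset.sum_eq_zero (fun k _ => hrest k), add_zero] at key
  have ha0 : a ∘ (0 : Fin 4).succAbove = 0 := by
    funext l; simp [ha]
  have hb0 : b ∘ (0 : Fin 4).succAbove = 1 := by
    funext l; simp [hb]
  have hi0 : e4 i 0 = 0 := by simp [e4, hi.symm]
  have hj0 : e4 j 0 = 0 := by simp [e4, hj.symm]
  have h00 : e4 0 0 = 1 := by simp [e4]
  rw [ha0, hb0] at key
  have hb00 : b 0 = t1 := by simp [hb]
  have ha00 : a 0 = t0 := by simp [ha]
  rw [hb00, ha00] at key
  simp only [hf, Pi.add_apply, Pi.sub_apply, Pi.smul_apply, smul_eq_mul, hi0, hj0, h00, mul_one,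
    mul_zero, sub_zero, add_zero] at key
  unfold avg
  linarith

theorem avg_const (hom : ContDiff ℝ 1 om) (hper : ∀ x (i : Fin 4), om (x + Pi.single i 1) = om x)
    (hcl : ∀ x, extDeriv om x = 0) {i j : Fin 4} (hi : i ≠ 0) (hj : j ≠ 0) (t : ℝ) :
    avg om (e4 i) (e4 j) t = avg om (e4 i) (e4 j) 0 := by
  rcases le_total 0 t with h | h
  · exact avg_const_le hom hper hcl hi hj h
  · exact (avg_const_le hom hper hcl hi hj h).symm

theorem lin_expand (f : E4 →L[ℝ] ℝ) (u : E4) : f u = ∑ i, u i * f (e4 i) := by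
  conv_lhs => rw [pi_eq_sum_univ' u]
  simp [map_sum, map_smul]

theorem form_expand (F : E4 [⋀^Fin 2]→L[ℝ] ℝ) (u v : E4) :
    F ![u, v] = ∑ i, ∑ j, u i * v j * F ![e4 i, e4 j] := by
  have h0 : ∀ a b z : E4, Function.update ![a, b] 0 z = ![z, b] := by
    intro a b z; funext k; fin_cases k <;> simp [Function.update]
  have h1 : ∀ a b z : E4, Function.update ![a, b] 1 z = ![a, z] := by
    intro a b z; funext k; fin_cases k <;> simp [Function.update]
  have e0 : ∀ a b : E4, F ![a, b] = ∑ i, a i * F ![e4 i, b] := by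
    intro a b
    have := lin_expand (F.toContinuousLinearMap ![a, b] 0) a
    simpa [ContinuousAlternatingMap.toContinuousLinearMap, h0] using this
  have e1 : ∀ a b : E4, F ![a, b] = ∑ j, b j * F ![a, e4 j] := by
    intro a b
    have := lin_expand (F.toContinuousLinearMap ![a, b] 1) b
    simpa [ContinuousAlternatingMap.toContinuousLinearMap, h1] using this
  rw [e0 u v]
  refine Finset.sum_congr rfl fun i _ => ?_
  rw [e1 (e4 i) v, Finset.mul_sum]
  refine Finset.sum_congr rfl fun j _ => ?_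
  ring

theorem form_swap (F : E4 [⋀^Fin 2]→L[ℝ] ℝ) (a b : E4) : F ![b, a] = - F ![a, b] := by
  have h := F.toAlternatingMap.map_swap ![a, b] (i := 0) (j := 1) (by decide)
  have h2 : ![a, b] ∘ Equiv.swap (0 : Fin 2) 1 = ![b, a] := by
    funext k; fin_cases k <;> simp
  rw [h2] at h
  exact h

theorem form_self (F : E4 [⋀^Fin 2]→L[ℝ] ℝ) (a : E4) : F ![a, a] = 0 :=
  F.map_eq_zero_of_eq ![a, a] (i := 0) (j := 1) rfl (by decide)

theorem continuous_slice (hom : Continuous om) (t : ℝ) (u v : E4) :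
    Continuous fun y : Fin 3 → ℝ => om ((0 : Fin 4).insertNth t y) ![u, v] := by
  have h1 : Continuous fun y : Fin 3 → ℝ => ((0 : Fin 4).insertNth t y : E4) :=
    Continuous.finInsertNth 0 continuous_const continuous_id
  exact (ContinuousAlternatingMap.apply ℝ E4 ℝ ![u, v]).continuous.comp (hom.comp h1)

theorem avg_expand (hom : Continuous om) (t : ℝ) (u v : E4) :
    avg om u v t = ∑ i, ∑ j, u i * v j * avg om (e4 i) (e4 j) t := by
  unfold avg
  simp_rw [form_expand (om _) u v]
  rw [integral_finsetSum]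
  · refine Finset.sum_congr rfl fun i _ => ?_
    rw [integral_finsetSum]
    · refine Finset.sum_congr rfl fun j _ => ?_
      rw [integral_const_mul]
    · intro j _
      exact ((continuous_slice hom t (e4 i) (e4 j)).const_mul _).integrableOn_Icc
  · intro i _
    refine integrable_finsetSum _ fun j _ => ?_
    exact ((continuous_slice hom t (e4 i) (e4 j)).const_mul _).integrableOn_Icc

theorem avg_swap (t : ℝ) (a b : E4) : avg om b a t = - avg om a b t := by
  unfold avg
  simp_rw [form_swap (om _) a b]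
  rw [integral_neg]

theorem avg_self (t : ℝ) (a : E4) : avg om a a t = 0 := by
  unfold avg
  simp_rw [form_self (om _) a]
  simp

theorem avg_pos (hom : Continuous om) {t : ℝ} {u v : E4}
    (h : ∀ y : Fin 3 → ℝ, 0 < om ((0 : Fin 4).insertNth t y) ![u, v]) : 0 < avg om u v t := by
  unfold avg
  rw [setIntegral_pos_iff_support_of_nonneg_ae (Filter.Eventually.of_forall fun y => (h y).le)
    (continuous_slice hom t u v).integrableOn_Icc]
  have hs : Function.support (fun y : Fin 3 → ℝ => om ((0 : Fin 4).insertNth t y) ![u, v]) = univ := by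
    ext y
    simp only [Function.mem_support, mem_univ, iff_true]
    exact (h y).ne'
  rw [hs, univ_inter, Real.volume_Icc_pi]
  simp

/-- The kernel direction of the averaged form on the hyperplane. -/
noncomputable def wvec (om : E4 → E4 [⋀^Fin 2]→L[ℝ] ℝ) : E4 :=
  ![0, avg om (e4 2) (e4 3) 0, avg om (e4 3) (e4 1) 0, avg om (e4 1) (e4 2) 0]

theorem avg_eq_cform (hom : ContDiff ℝ 1 om) (hper : ∀ x (i : Fin 4), om (x + Pi.single i 1) = om x)
    (hcl : ∀ x, extDeriv om x = 0) (t : ℝ) {u v : E4} (hu : u 0 = 0) (hv : v 0 = 0) :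
    avg om u v t = cform (wvec om) u v := by
  rw [avg_expand hom.continuous]
  have c := fun (i j : Fin 4) (hi : i ≠ 0) (hj : j ≠ 0) => avg_const hom hper hcl hi hj t
  simp only [Fin.sum_univ_four, hu, hv, zero_mul, zero_add, avg_self, mul_zero, add_zero]
  rw [c 1 2 (by decide) (by decide), c 1 3 (by decide) (by decide), c 2 1 (by decide) (by decide),
    c 2 3 (by decide) (by decide), c 3 1 (by decide) (by decide), c 3 2 (by decide) (by decide),
    avg_swap 0 (e4 1) (e4 2), avg_swap 0 (e4 2) (e4 3), avg_swap 0 (e4 3) (e4 1)]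
  simp only [cform, wvec, Matrix.cons_val_one, Matrix.cons_val_zero, Matrix.cons_val_two,
    Matrix.cons_val_three, Matrix.head_cons, Matrix.tail_cons]
  ring

end Vale.Agent.Lib.P204
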