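import Mathlib

open scoped ContDiff

namespace Vale.Agent.Lib.P204

/-- The universal cover of the four-torus `T⁴ = ℝ⁴/ℤ⁴`. Tensor fields on `T⁴` are written as
tensor fields on `ℝ⁴` invariant under the lattice of integer translations. -/
abbrev R4 : Type := Fin 4 → ℝ

/-- Linear endomorphisms of the tangent space `ℝ⁴`. -/
abbrev End4 : Type := R4 →L[ℝ] R4

/-- Alternating bilinear forms on the tangent space `ℝ⁴`. -/
abbrev Alt2 : Type := R4 [⋀^Fin 2]→L[ℝ] ℝ

/-- A field on `ℝ⁴` is invariant under the unit translation along each coordinate axis, hence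
under all of `ℤ⁴`, so it is a field on the torus. -/
def LatticePeriodic {α : Type} (f : R4 → α) : Prop :=
  ∀ (x : R4) (i : Fin 4), f (x + Pi.single i 1) = f x

/-- A smooth almost complex structure on the torus: a smooth lattice-periodic field of
endomorphisms with square minus the identity. -/
def IsAlmostComplexStructure (J : R4 → End4) : Prop :=
  ContDiff ℝ ∞ J ∧ LatticePeriodic J ∧ ∀ x v, J x (J x v) = -v

/-- A smooth closed two-form on the torus: a smooth lattice-periodic two-form with vanishing
exterior derivative. -/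
def IsClosedTwoForm (η : R4 → Alt2) : Prop :=
  ContDiff ℝ ∞ η ∧ LatticePeriodic η ∧ ∀ x, extDeriv η x = 0

/-- The two-form `η` tames `J`: `η (v, J v) > 0` for every nonzero tangent vector `v`. -/
def Tames (η : R4 → Alt2) (J : R4 → End4) : Prop :=
  ∀ x v, v ≠ 0 → 0 < η x ![v, J x v]

/-- The two-form `η` is `J`-invariant: `η (J u, J v) = η (u, v)`. -/
def IsInvariant (η : R4 → Alt2) (J : R4 → End4) : Prop :=
  ∀ x u v, η x ![J x u, J x v] = η x ![u, v]

end Vale.Agent.Lib.P204
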