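import Mathlib
import Vale.Agent.Lib.P204.Alg
import Vale.Agent.Lib.P204.Avg

namespace Vale.Agent.Lib.P204

open MeasureTheory Set
open scoped ContDiff

/-- Coordinate projection. -/
abbrev pr (i : Fin 4) : E4 →L[ℝ] ℝ := ContinuousLinearMap.proj i

/-- A bilinear form whose antisymmetrisation is `cform w`. -/
noncomputable def B0 (w : E4) : E4 →L[ℝ] E4 →L[ℝ] ℝ :=
  w 1 • (pr 2).smulRight (pr 3) + w 2 • (pr 3).smulRight (pr 1) + w 3 • (pr 1).smulRight (pr 2)

/-- The functional `v ↦ cform w v z`. -/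
noncomputable def cflat (w z : E4) : E4 →L[ℝ] ℝ :=
  (w 3 * z 2 - w 2 * z 3) • pr 1 + (w 1 * z 3 - w 3 * z 1) • pr 2 + (w 2 * z 1 - w 1 * z 2) • pr 3

/-- The one-form `β` as a continuous linear functional. -/
noncomputable def betaCLM (w : E4) (A : E4 →L[ℝ] E4) : E4 →L[ℝ] ℝ :=
  (A w 0)⁻¹ • cflat w (A w) - ((A w 0)⁻¹ ^ 2) • ((pr 0).comp A)

/-- A bilinear form whose antisymmetrisation is the extended form. -/
noncomputable def bilin (w : E4) (A : E4 →L[ℝ] E4) : E4 →L[ℝ] E4 →L[ℝ] ℝ :=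
  B0 w + (pr 0).smulRight (betaCLM w A)

/-- The extended two-form attached to `w` and the complex structure `A`. -/
noncomputable def formOf (w : E4) (A : E4 →L[ℝ] E4) : E4 [⋀^Fin 2]→L[ℝ] ℝ :=
  ContinuousAlternatingMap.alternatizeUncurryFin
    ((((ContinuousAlternatingMap.ofSubsingletonLIE (0 : Fin 1) :
      (E4 →L[ℝ] ℝ) ≃ₗᵢ[ℝ] (E4 [⋀^Fin 1]→L[ℝ] ℝ)).toContinuousLinearEquiv :
      (E4 →L[ℝ] ℝ) →L[ℝ] (E4 [⋀^Fin 1]→L[ℝ] ℝ))).comp (bilin w A))

theorem formOf_apply (w : E4) (A : E4 →L[ℝ] E4) (m : Fin 2 → E4) :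
    formOf w A m = Om (A : E4 →ₗ[ℝ] E4) w (m 0) (m 1) := by
  have ht : Fin.tail m 0 = m 1 := rfl
  have hr : Fin.removeNth 1 m 0 = m 0 := rfl
  rw [formOf, ContinuousAlternatingMap.alternatizeUncurryFin_apply]
  simp [Fin.sum_univ_two, bilin, B0, betaCLM, cflat, Om, beta, cform, ht, hr]
  ring

theorem formOf_contDiff {J : E4 → E4 →L[ℝ] E4} (hJ : ContDiff ℝ ∞ J) (w : E4)
    (hk : ∀ x, J x w 0 ≠ 0) : ContDiff ℝ ∞ (fun x => formOf w (J x)) := by
  have hJw : ContDiff ℝ ∞ (fun x => J x w) := hJ.clm_apply contDiff_const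
  have hc : ∀ k : Fin 4, ContDiff ℝ ∞ (fun x => J x w k) := fun k =>
    (pr k).contDiff.comp hJw
  have hinv : ContDiff ℝ ∞ (fun x => (J x w 0)⁻¹) := (hc 0).inv hk
  have hflat : ContDiff ℝ ∞ (fun x => cflat w (J x w)) := by
    unfold cflat
    exact ((((contDiff_const.mul (hc 2)).sub (contDiff_const.mul (hc 3))).smul contDiff_const).add
      (((contDiff_const.mul (hc 3)).sub (contDiff_const.mul (hc 1))).smul contDiff_const)).add
      (((contDiff_const.mul (hc 1)).sub (contDiff_const.mul (hc 2))).smul contDiff_const)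
  have hbeta : ContDiff ℝ ∞ (fun x => betaCLM w (J x)) := by
    unfold betaCLM
    exact (hinv.smul hflat).sub ((hinv.pow 2).smul (contDiff_const.clm_comp hJ))
  have hbil : ContDiff ℝ ∞ (fun x => bilin w (J x)) := by
    unfold bilin
    exact contDiff_const.add (contDiff_const.smulRight hbeta)
  unfold formOf
  exact (ContinuousAlternatingMap.alternatizeUncurryFinCLM ℝ E4 ℝ).contDiff.comp
    (contDiff_const.clm_comp hbil)

theorem main (J : E4 → E4 →L[ℝ] E4) (hJ : ContDiff ℝ ∞ J)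
    (hJ2 : ∀ x v, J x (J x v) = -v)
    (hJper : ∀ x (i : Fin 4), J (x + Pi.single i 1) = J x)
    (hJinv : ∀ x y : E4, x 0 = y 0 → J x = J y)
    (om : E4 → E4 [⋀^Fin 2]→L[ℝ] ℝ) (hom' : ContDiff ℝ ∞ om)
    (hper : ∀ x (i : Fin 4), om (x + Pi.single i 1) = om x)
    (hcl : ∀ x, extDeriv om x = 0)
    (htame : ∀ x v, v ≠ 0 → 0 < om x ![v, J x v]) :
    ∃ om' : E4 → E4 [⋀^Fin 2]→L[ℝ] ℝ, ContDiff ℝ ∞ om' ∧
      (∀ x (i : Fin 4), om' (x + Pi.single i 1) = om' x) ∧ (∀ x, extDeriv om' x = 0) ∧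
      (∀ x v, v ≠ 0 → 0 < om' x ![v, J x v]) ∧
      (∀ x u v, om' x ![J x u, J x v] = om' x ![u, v]) := by
  have hom : ContDiff ℝ 1 om := hom'.of_le (by norm_cast)
  set w : E4 := wvec om with hw
  have hw0 : w 0 = 0 := by simp [hw, wvec]
  have hpos : ∀ x, ∀ v : E4, v 0 = 0 → (J x : E4 →ₗ[ℝ] E4) v 0 = 0 → v ≠ 0 →
      0 < cform w v ((J x : E4 →ₗ[ℝ] E4) v) := by
    intro x v hv0 hv1 hv
    rw [← avg_eq_cform hom hper hcl (x 0) hv0 hv1]
    apply avg_pos hom.continuous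
    intro y
    have h1 : J ((0 : Fin 4).insertNth (x 0) y) = J x := hJinv _ _ (by simp)
    have h := htame ((0 : Fin 4).insertNth (x 0) y) v hv
    rw [h1] at h
    exact h
  have hJ2' : ∀ x, ∀ v, (J x : E4 →ₗ[ℝ] E4) ((J x : E4 →ₗ[ℝ] E4) v) = -v := fun x v => hJ2 x v
  have hk : ∀ x, J x w 0 ≠ 0 := fun x => kappa_ne (J x : E4 →ₗ[ℝ] E4) (hJ2' x) hw0 (hpos x)
  have hsm := formOf_contDiff hJ w hk
  refine ⟨fun x => formOf w (J x), hsm, ?_, ?_, ?_, ?_⟩
  · intro x i
    simp only [hJper]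
  · intro x
    have hdiff : Differentiable ℝ (fun x => formOf w (J x)) := hsm.differentiable (by simp)
    apply ContinuousAlternatingMap.toAlternatingMap_injective
    apply (Pi.basisFun ℝ (Fin 4)).ext_alternating
    intro v hv
    rw [ContinuousAlternatingMap.coe_toAlternatingMap, extDeriv_apply (hdiff x)]
    simp only [ContinuousAlternatingMap.toAlternatingMap_zero, AlternatingMap.zero_apply]
    refine Finset.sum_eq_zero fun l _ => ?_
    rw [smul_eq_zero]
    right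
    by_cases hl : v l = 0
    · have hne : ∀ i : Fin 2, v (l.succAbove i) ≠ 0 := fun i h =>
        Fin.succAbove_ne l i (hv (h.trans hl.symm))
      have hconst : (fun y => formOf w (J y) (l.removeNth fun i => (Pi.basisFun ℝ (Fin 4)) (v i)))
          = fun _ => cform w (Pi.single (v (l.succAbove 0)) 1) (Pi.single (v (l.succAbove 1)) 1) := by
        funext y
        have e0 : (l.removeNth (fun i => (Pi.basisFun ℝ (Fin 4)) (v i)) 0 : E4)
            = Pi.single (v (l.succAbove 0)) 1 := by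
          simp [Fin.removeNth]
        have e1 : (l.removeNth (fun i => (Pi.basisFun ℝ (Fin 4)) (v i)) 1 : E4)
            = Pi.single (v (l.succAbove 1)) 1 := by
          simp [Fin.removeNth]
        rw [formOf_apply, e0, e1]
        apply Om_hyperplane
        · simp [hne 0]
        · simp [hne 1]
      rw [hconst]
      simp
    · set m : Fin 2 → E4 := l.removeNth fun i => (Pi.basisFun ℝ (Fin 4)) (v i) with hm
      set G : E4 → ℝ := fun y => formOf w (J y) m with hG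
      have hGd : DifferentiableAt ℝ G x :=
        (ContinuousAlternatingMap.apply ℝ E4 ℝ m).differentiableAt.comp x (hdiff x)
      have h1 := hGd.hasFDerivAt.hasLineDerivAt ((Pi.basisFun ℝ (Fin 4)) (v l))
      have h2 : (fun t : ℝ => G (x + t • (Pi.basisFun ℝ (Fin 4)) (v l))) = fun _ => G x := by
        funext t
        have : J (x + t • (Pi.basisFun ℝ (Fin 4)) (v l)) = J x := hJinv _ _ (by simp [hl])
        simp only [hG, this]
      unfold HasLineDerivAt at h1
      rw [h2] at h1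
      exact h1.unique (hasDerivAt_const 0 (G x))
  · intro x v hv
    rw [formOf_apply]
    exact Om_pos (J x : E4 →ₗ[ℝ] E4) (hJ2' x) hw0 (hpos x) v hv
  · intro x u v
    rw [formOf_apply, formOf_apply]
    exact Om_J_J (J x : E4 →ₗ[ℝ] E4) (hJ2' x) hw0 (hpos x) u v

end Vale.Agent.Lib.P204
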